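import Vale.Agent.P042U.Fin

set_option autoImplicit false

/-!
P042: power saving for intersective polynomial differences, with an exponent which depends only on
the degree.
-/

namespace Vale.Agent.Results.P042.DegreeUniformSaving

open Polynomial

/-- **Power saving with an exponent depending only on the degree.** For every `k ≥ 2` there is
`c > 0` such that for every intersective `h` of degree `k` with positive leading coefficient there
is `C > 0` with `r_h(N) ≤ C N ^ (1 - c)` for all `N ≥ 1`. -/
theorem result : ∀ k : ℕ, 2 ≤ k → ∃ c : ℝ, 0 < c ∧ ∀ h : ℤ[X], h.natDegree = k →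
    0 < h.leadingCoeff → Vale.Agent.P042.Intersective h →
    ∃ C : ℝ, 0 < C ∧ ∀ N : ℕ, 1 ≤ N →
      (Vale.Agent.P042.rMax h N : ℝ) ≤ C * (N : ℝ) ^ (1 - c) :=
  Vale.Agent.P042U.final_degree

end Vale.Agent.Results.P042.DegreeUniformSaving
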